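import Mathlib

namespace Vale.Agent.Lib.P249.H33g

open Finset

def sqd {k m : ℕ} (x y : Fin k → Fin m) : ℝ := ∑ j, (((x j : ℕ) : ℝ) - ((y j : ℕ) : ℝ)) ^ 2

theorem h33_sqd_nonneg {k m : ℕ} (x y : Fin k → Fin m) : 0 ≤ sqd x y :=
  Finset.sum_nonneg fun _ _ => sq_nonneg _

theorem h33_sqd_self {k m : ℕ} (x : Fin k → Fin m) : sqd x x = 0 := by
  unfold sqd
  simp

/-- A median of a real function on a finite nonempty type. -/
theorem h33_exists_median {α : Type*} [Fintype α] [Nonempty α] (h : α → ℝ) :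
    ∃ M : ℝ, Fintype.card α ≤ 2 * (univ.filter fun a => h a ≤ M).card ∧
      Fintype.card α ≤ 2 * (univ.filter fun a => M ≤ h a).card := by
  classical
  set S : Finset α :=
    univ.filter fun a => Fintype.card α ≤ 2 * (univ.filter fun b => h b ≤ h a).card with hS
  have hSne : S.Nonempty := by
    obtain ⟨a0, -, ha0⟩ := Finset.exists_max_image univ h univ_nonempty
    refine ⟨a0, ?_⟩
    rw [hS, mem_filter]
    refine ⟨mem_univ _, ?_⟩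
    have hall : (univ.filter fun b => h b ≤ h a0) = univ := by
      apply filter_true_of_mem
      intro b _
      exact ha0 b (mem_univ b)
    rw [hall, card_univ]
    omega
  obtain ⟨a1, ha1S, ha1⟩ := Finset.exists_min_image S h hSne
  refine ⟨h a1, (mem_filter.mp ha1S).2, ?_⟩
  set B : Finset α := univ.filter fun a => h a < h a1 with hB
  have hsplit : (univ.filter fun a => h a1 ≤ h a).card + B.card = Fintype.card α := by
    rw [hB, ← card_univ]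
    have h0 := Finset.card_filter_add_card_filter_not (s := (univ : Finset α))
      (fun a => h a1 ≤ h a)
    simp only [not_le] at h0
    exact h0
  rcases B.eq_empty_or_nonempty with hBe | hBne
  · rw [hBe, card_empty, add_zero] at hsplit
    omega
  · obtain ⟨a2, ha2B, ha2⟩ := Finset.exists_max_image B h hBne
    have ha2lt : h a2 < h a1 := (mem_filter.mp ha2B).2
    have ha2S : a2 ∉ S := fun hmem => absurd (ha1 a2 hmem) (not_le.mpr ha2lt)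
    have hcard : ¬ (Fintype.card α ≤ 2 * (univ.filter fun b => h b ≤ h a2).card) := by
      intro hc
      exact ha2S (mem_filter.mpr ⟨mem_univ _, hc⟩)
    have hsub : B ⊆ univ.filter fun b => h b ≤ h a2 := by
      intro b hb
      exact mem_filter.mpr ⟨mem_univ _, ha2 b hb⟩
    have hle := card_le_card hsub
    omega

theorem h33_add_rpow_le (x y : ℝ) (hx : 0 ≤ x) (hy : 0 ≤ y) (p : ℝ) (hp : 1 ≤ p) :
    (x + y) ^ p ≤ 2 ^ (p - 1) * (x ^ p + y ^ p) := by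
  have h0 := NNReal.rpow_add_le_mul_rpow_add_rpow ⟨x, hx⟩ ⟨y, hy⟩ hp
  exact_mod_cast h0

/-- Squared distance from `x` to the nearest point of a nonempty set `A` of grid points. -/
noncomputable def h33_phi {k m : ℕ} (A : Finset (Fin k → Fin m)) (hA : A.Nonempty)
    (x : Fin k → Fin m) : ℝ := A.inf' hA (fun a => sqd x a)

theorem h33_phi_nonneg {k m : ℕ} (A : Finset (Fin k → Fin m)) (hA : A.Nonempty)
    (x : Fin k → Fin m) : 0 ≤ h33_phi A hA x :=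
  Finset.le_inf' _ _ fun a _ => h33_sqd_nonneg x a

theorem h33_phi_exists {k m : ℕ} (A : Finset (Fin k → Fin m)) (hA : A.Nonempty)
    (x : Fin k → Fin m) : ∃ a ∈ A, h33_phi A hA x = sqd x a :=
  Finset.exists_mem_eq_inf' hA (fun a => sqd x a)

theorem h33_phi_le {k m : ℕ} (A : Finset (Fin k → Fin m)) (hA : A.Nonempty)
    (y a : Fin k → Fin m) (ha : a ∈ A) : h33_phi A hA y ≤ sqd y a :=
  Finset.inf'_le (fun a => sqd y a) ha

theorem h33_phi_zero {k m : ℕ} (A : Finset (Fin k → Fin m)) (hA : A.Nonempty)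
    (x : Fin k → Fin m) (hx : x ∈ A) : h33_phi A hA x = 0 := by
  have h1 := h33_phi_le A hA x x hx
  rw [h33_sqd_self] at h1
  exact le_antisymm h1 (h33_phi_nonneg A hA x)

/-- The moment bound for the distance to a half-measure set, without the shift by `k`. -/
theorem h33_one_side
    (hmo : ∀ (k m : ℕ), 1 ≤ k → k ≤ m ^ 2 → ∀ (A : Finset (Fin k → Fin m)),
      m ^ k ≤ 2 * A.card → ∀ (Φ : (Fin k → Fin m) → ℝ), (∀ x ∈ A, Φ x = 0) →
      (∀ x, ∃ a, Φ x = sqd x a ∧ ∀ y, Φ y ≤ sqd y a) → ∀ (r : ℕ), 1 ≤ r →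
      ∑ x, (Φ x + k) ^ (2 * r) ≤
        ((128 * (r : ℝ) ^ 2 * 9 ^ r) ^ (2 * r) + 4) * (m : ℝ) ^ (4 * r) * (m : ℝ) ^ k)
    (k m : ℕ) (hk : 1 ≤ k) (hkm : k ≤ m ^ 2) (A : Finset (Fin k → Fin m)) (hA : A.Nonempty)
    (hcard : m ^ k ≤ 2 * A.card) (r : ℕ) (hr : 1 ≤ r) :
    ∑ x, (h33_phi A hA x) ^ (2 * r) ≤
      ((128 * (r : ℝ) ^ 2 * 9 ^ r) ^ (2 * r) + 4) * (m : ℝ) ^ (4 * r) * (m : ℝ) ^ k := by
  have h1 := hmo k m hk hkm A hcard (h33_phi A hA) (fun x hx => h33_phi_zero A hA x hx)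
    (fun x => by
      obtain ⟨a, ha, hxa⟩ := h33_phi_exists A hA x
      exact ⟨a, hxa, fun y => h33_phi_le A hA y a ha⟩) r hr
  refine le_trans (Finset.sum_le_sum fun x _ => ?_) h1
  exact pow_le_pow_left₀ (h33_phi_nonneg A hA x) (by
    have : (0 : ℝ) ≤ (k : ℝ) := Nat.cast_nonneg k
    linarith) _

/-- The pointwise real inequality behind step (4). -/
theorem h33_point (q : ℝ) (hq : 2 ≤ q) (r : ℕ) (hqr : q ≤ r) (mR : ℝ) (hm : 1 ≤ mR)
    (Lam2 : ℝ) (hLam : 0 ≤ Lam2) (d a b : ℝ) (ha : 0 ≤ a) (hb : 0 ≤ b)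
    (hd : d ^ 2 ≤ Lam2 * (a + b)) :
    |d| ^ q ≤ Lam2 ^ (q / 2) * mR ^ q *
      (1 + 2 ^ (2 * r - 1) * (a ^ (2 * r) + b ^ (2 * r)) / mR ^ (4 * r)) := by
  have hq0 : 0 < q := by linarith
  have hm0 : 0 < mR := by linarith
  have hS : 0 ≤ a + b := by linarith
  obtain ⟨t, ht⟩ : ∃ t : ℝ, t = (a + b) / mR ^ 2 := ⟨_, rfl⟩
  have ht0 : 0 ≤ t := by rw [ht]; positivity
  have hSt : a + b = mR ^ 2 * t := by rw [ht]; field_simp
  have e1 : |d| ^ q = (d ^ 2) ^ (q / 2) := by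
    rw [← sq_abs, ← Real.rpow_natCast, ← Real.rpow_mul (abs_nonneg _)]
    congr 1
    push_cast
    ring
  have e2 : (d ^ 2) ^ (q / 2) ≤ (Lam2 * (a + b)) ^ (q / 2) :=
    Real.rpow_le_rpow (sq_nonneg _) hd (by linarith)
  have e3 : (Lam2 * (a + b)) ^ (q / 2) = Lam2 ^ (q / 2) * (a + b) ^ (q / 2) :=
    Real.mul_rpow hLam hS
  have e4 : (a + b) ^ (q / 2) = mR ^ q * t ^ (q / 2) := by
    rw [hSt, Real.mul_rpow (by positivity) ht0]
    congr 1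
    rw [← Real.rpow_natCast, ← Real.rpow_mul hm0.le]
    congr 1
    push_cast
    ring
  have e5 : t ^ (q / 2) ≤ 1 + t ^ (2 * r) := by
    have h2 : 0 ≤ t ^ (2 * r) := by positivity
    rcases le_total t 1 with h1 | h1
    · have := Real.rpow_le_one ht0 h1 (by linarith : 0 ≤ q / 2)
      linarith
    · have h3 : t ^ (q / 2) ≤ t ^ (((2 * r : ℕ)) : ℝ) := by
        apply Real.rpow_le_rpow_of_exponent_le h1
        push_cast
        linarith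
      rw [Real.rpow_natCast] at h3
      linarith
  have e6 : t ^ (2 * r) = (a + b) ^ (2 * r) / mR ^ (4 * r) := by
    have h4 : 2 * (2 * r) = 4 * r := by ring
    rw [ht, div_pow, ← pow_mul, h4]
  have e7 : (a + b) ^ (2 * r) ≤ 2 ^ (2 * r - 1) * (a ^ (2 * r) + b ^ (2 * r)) :=
    add_pow_le ha hb (2 * r)
  have e8 : t ^ (2 * r) ≤ 2 ^ (2 * r - 1) * (a ^ (2 * r) + b ^ (2 * r)) / mR ^ (4 * r) := by
    rw [e6]
    exact div_le_div_of_nonneg_right e7 (by positivity)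
  have hc : 0 ≤ Lam2 ^ (q / 2) * mR ^ q :=
    mul_nonneg (Real.rpow_nonneg hLam _) (Real.rpow_nonneg hm0.le _)
  calc |d| ^ q = (d ^ 2) ^ (q / 2) := e1
    _ ≤ Lam2 ^ (q / 2) * (a + b) ^ (q / 2) := by rw [← e3]; exact e2
    _ = Lam2 ^ (q / 2) * mR ^ q * t ^ (q / 2) := by rw [e4]; ring
    _ ≤ Lam2 ^ (q / 2) * mR ^ q *
        (1 + 2 ^ (2 * r - 1) * (a ^ (2 * r) + b ^ (2 * r)) / mR ^ (4 * r)) := by
        apply mul_le_mul_of_nonneg_left _ hc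
        linarith

/-- Pool job 238 (P249-GRID-G4): p-th moment concentration of Euclidean-Lipschitz functions
on the grid, from the moment bound `hmo` for the distance to a half-measure set. -/
theorem conc_grid
    (hmo : ∀ (k m : ℕ), 1 ≤ k → k ≤ m ^ 2 → ∀ (A : Finset (Fin k → Fin m)),
      m ^ k ≤ 2 * A.card → ∀ (Φ : (Fin k → Fin m) → ℝ), (∀ x ∈ A, Φ x = 0) →
      (∀ x, ∃ a, Φ x = sqd x a ∧ ∀ y, Φ y ≤ sqd y a) → ∀ (r : ℕ), 1 ≤ r →
      ∑ x, (Φ x + k) ^ (2 * r) ≤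
        ((128 * (r : ℝ) ^ 2 * 9 ^ r) ^ (2 * r) + 4) * (m : ℝ) ^ (4 * r) * (m : ℝ) ^ k)
    (q : ℝ) (hq : 2 ≤ q) : ∃ C : ℝ, 0 < C ∧ ∀ (k m : ℕ), 1 ≤ k → k ≤ m ^ 2 →
    ∀ (Lam2 : ℝ), 0 ≤ Lam2 → ∀ h : (Fin k → Fin m) → ℝ,
      (∀ x y, (h x - h y) ^ 2 ≤ Lam2 * sqd x y) →
      ∑ x, ∑ y, |h x - h y| ^ q ≤ C * Lam2 ^ (q / 2) * (m : ℝ) ^ q * (m : ℝ) ^ (2 * k) := by
  obtain ⟨r, hrdef⟩ : ∃ r : ℕ, r = Nat.ceil q := ⟨_, rfl⟩
  have hqr : q ≤ (r : ℝ) := by rw [hrdef]; exact Nat.le_ceil q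
  have hr1 : 1 ≤ r := by
    have h1 : (2 : ℝ) ≤ (r : ℝ) := le_trans hq hqr
    have h2 : (2 : ℕ) ≤ r := by exact_mod_cast h1
    omega
  obtain ⟨Kr, hKrdef⟩ : ∃ Kr : ℝ, Kr = (128 * (r : ℝ) ^ 2 * 9 ^ r) ^ (2 * r) + 4 := ⟨_, rfl⟩
  have hKr0 : 0 < Kr := by rw [hKrdef]; positivity
  have hq0 : 0 < q := by linarith
  refine ⟨2 ^ q * (1 + 2 ^ (2 * r) * Kr), by positivity, ?_⟩
  intro k m hk hkm Lam2 hLam h hlip
  have hm : 1 ≤ m := by
    rcases Nat.eq_zero_or_pos m with h0 | h0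
    · subst h0
      simp at hkm
      omega
    · exact h0
  have hmR : (1 : ℝ) ≤ (m : ℝ) := by exact_mod_cast hm
  have hmR0 : (0 : ℝ) < (m : ℝ) := by linarith
  have : Nonempty (Fin k → Fin m) := ⟨fun _ => ⟨0, hm⟩⟩
  have hcardG : Fintype.card (Fin k → Fin m) = m ^ k := by simp
  obtain ⟨M, hM1, hM2⟩ := h33_exists_median h
  rw [hcardG] at hM1 hM2
  have hmk : 1 ≤ m ^ k := Nat.one_le_pow _ _ hm
  have hAm : (univ.filter fun x => h x ≤ M).Nonempty := by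
    rw [← Finset.card_pos]; omega
  have hAp : (univ.filter fun x => M ≤ h x).Nonempty := by
    rw [← Finset.card_pos]; omega
  have Tm := h33_one_side hmo k m hk hkm _ hAm hM1 r hr1
  have Tp := h33_one_side hmo k m hk hkm _ hAp hM2 r hr1
  rw [← hKrdef] at Tm Tp
  obtain ⟨Fm, hFm⟩ : ∃ F : (Fin k → Fin m) → ℝ, F = h33_phi _ hAm := ⟨_, rfl⟩
  obtain ⟨Fp, hFp⟩ : ∃ F : (Fin k → Fin m) → ℝ, F = h33_phi _ hAp := ⟨_, rfl⟩
  rw [← hFm] at Tm
  rw [← hFp] at Tp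
  have hFm0 : ∀ x, 0 ≤ Fm x := fun x => by rw [hFm]; exact h33_phi_nonneg _ hAm x
  have hFp0 : ∀ x, 0 ≤ Fp x := fun x => by rw [hFp]; exact h33_phi_nonneg _ hAp x
  have h3 : ∀ x, (h x - M) ^ 2 ≤ Lam2 * (Fm x + Fp x) := by
    intro x
    have hm0 := hFm0 x
    have hp0 := hFp0 x
    rcases le_total (h x) M with hx | hx
    · obtain ⟨a, ha, hxa⟩ := h33_phi_exists _ hAp x
      have haM : M ≤ h a := (Finset.mem_filter.mp ha).2
      have h1 := hlip x a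
      have h2 : (h x - M) ^ 2 ≤ (h x - h a) ^ 2 := by nlinarith
      calc (h x - M) ^ 2 ≤ Lam2 * sqd x a := le_trans h2 h1
        _ = Lam2 * Fp x := by rw [hFp, hxa]
        _ ≤ Lam2 * (Fm x + Fp x) := mul_le_mul_of_nonneg_left (by linarith) hLam
    · obtain ⟨a, ha, hxa⟩ := h33_phi_exists _ hAm x
      have haM : h a ≤ M := (Finset.mem_filter.mp ha).2
      have h1 := hlip x a
      have h2 : (h x - M) ^ 2 ≤ (h x - h a) ^ 2 := by nlinarith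
      calc (h x - M) ^ 2 ≤ Lam2 * sqd x a := le_trans h2 h1
        _ = Lam2 * Fm x := by rw [hFm, hxa]
        _ ≤ Lam2 * (Fm x + Fp x) := mul_le_mul_of_nonneg_left (by linarith) hLam
  have hpt : ∀ x, |h x - M| ^ q ≤ Lam2 ^ (q / 2) * (m : ℝ) ^ q *
      (1 + 2 ^ (2 * r - 1) * ((Fm x) ^ (2 * r) + (Fp x) ^ (2 * r)) / (m : ℝ) ^ (4 * r)) :=
    fun x => h33_point q hq r hqr (m : ℝ) hmR Lam2 hLam (h x - M) _ _ (hFm0 x) (hFp0 x) (h3 x)
  obtain ⟨Sm, hSm⟩ : ∃ S : ℝ, S = ∑ x, |h x - M| ^ q := ⟨_, rfl⟩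
  have hc : 0 ≤ Lam2 ^ (q / 2) * (m : ℝ) ^ q :=
    mul_nonneg (Real.rpow_nonneg hLam _) (Real.rpow_nonneg hmR0.le _)
  have hcardR : ((Finset.univ : Finset (Fin k → Fin m)).card : ℝ) = (m : ℝ) ^ k := by
    rw [Finset.card_univ, hcardG]
    push_cast
    rfl
  have hSm_le : Sm ≤ Lam2 ^ (q / 2) * (m : ℝ) ^ q * ((1 + 2 ^ (2 * r) * Kr) * (m : ℝ) ^ k) := by
    have hsum : ∑ x : Fin k → Fin m,
        (1 + 2 ^ (2 * r - 1) * ((Fm x) ^ (2 * r) + (Fp x) ^ (2 * r)) / (m : ℝ) ^ (4 * r))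
        = (m : ℝ) ^ k + 2 ^ (2 * r - 1) *
          (∑ x, (Fm x) ^ (2 * r) + ∑ x, (Fp x) ^ (2 * r)) / (m : ℝ) ^ (4 * r) := by
      rw [Finset.sum_add_distrib, Finset.sum_const, nsmul_eq_mul, hcardR, mul_one,
        ← Finset.sum_div, ← Finset.mul_sum, Finset.sum_add_distrib]
    have h2r : (2 : ℝ) ^ (2 * r - 1) * 2 = 2 ^ (2 * r) := by
      rw [← pow_succ]
      congr 1
      omega
    have hbound : (2 : ℝ) ^ (2 * r - 1) *
        (∑ x, (Fm x) ^ (2 * r) + ∑ x, (Fp x) ^ (2 * r)) / (m : ℝ) ^ (4 * r)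
        ≤ 2 ^ (2 * r) * Kr * (m : ℝ) ^ k := by
      rw [div_le_iff₀ (by positivity)]
      calc (2 : ℝ) ^ (2 * r - 1) * (∑ x, (Fm x) ^ (2 * r) + ∑ x, (Fp x) ^ (2 * r))
          ≤ 2 ^ (2 * r - 1) * (Kr * (m : ℝ) ^ (4 * r) * (m : ℝ) ^ k
              + Kr * (m : ℝ) ^ (4 * r) * (m : ℝ) ^ k) :=
            mul_le_mul_of_nonneg_left (add_le_add Tm Tp) (by positivity)
        _ = 2 ^ (2 * r) * Kr * (m : ℝ) ^ k * (m : ℝ) ^ (4 * r) := by
            rw [← h2r]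
            ring
    have hexp : (1 + 2 ^ (2 * r) * Kr) * (m : ℝ) ^ k
        = (m : ℝ) ^ k + 2 ^ (2 * r) * Kr * (m : ℝ) ^ k := by ring
    calc Sm = ∑ x, |h x - M| ^ q := hSm
      _ ≤ ∑ x : Fin k → Fin m, Lam2 ^ (q / 2) * (m : ℝ) ^ q *
          (1 + 2 ^ (2 * r - 1) * ((Fm x) ^ (2 * r) + (Fp x) ^ (2 * r)) / (m : ℝ) ^ (4 * r)) :=
          Finset.sum_le_sum fun x _ => hpt x
      _ = Lam2 ^ (q / 2) * (m : ℝ) ^ q * ((m : ℝ) ^ k + 2 ^ (2 * r - 1) *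
          (∑ x, (Fm x) ^ (2 * r) + ∑ x, (Fp x) ^ (2 * r)) / (m : ℝ) ^ (4 * r)) := by
          rw [← Finset.mul_sum, hsum]
      _ ≤ Lam2 ^ (q / 2) * (m : ℝ) ^ q * ((1 + 2 ^ (2 * r) * Kr) * (m : ℝ) ^ k) := by
          apply mul_le_mul_of_nonneg_left _ hc
          rw [hexp]
          linarith
  have hpair : ∀ a b, |h a - h b| ^ q ≤ 2 ^ (q - 1) * (|h a - M| ^ q + |h b - M| ^ q) := by
    intro a b
    have h1 : |h a - h b| ≤ |h a - M| + |h b - M| := by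
      have h0 := abs_sub_le (h a) M (h b)
      rw [abs_sub_comm M (h b)] at h0
      exact h0
    calc |h a - h b| ^ q ≤ (|h a - M| + |h b - M|) ^ q :=
          Real.rpow_le_rpow (abs_nonneg _) h1 hq0.le
      _ ≤ 2 ^ (q - 1) * (|h a - M| ^ q + |h b - M| ^ q) :=
          h33_add_rpow_le _ _ (abs_nonneg _) (abs_nonneg _) q (by linarith)
  have hinner : ∀ a, ∑ b, (2 ^ (q - 1) * (|h a - M| ^ q + |h b - M| ^ q)) =
      2 ^ (q - 1) * ((m : ℝ) ^ k * |h a - M| ^ q + Sm) := by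
    intro a
    rw [← Finset.mul_sum, Finset.sum_add_distrib, Finset.sum_const, nsmul_eq_mul, hcardR, hSm]
  have hdouble : ∑ a, ∑ b, (2 ^ (q - 1) * (|h a - M| ^ q + |h b - M| ^ q)) =
      2 ^ (q - 1) * (2 * (m : ℝ) ^ k * Sm) := by
    rw [Finset.sum_congr rfl fun a _ => hinner a, ← Finset.mul_sum, Finset.sum_add_distrib,
      ← Finset.mul_sum, Finset.sum_const, nsmul_eq_mul, hcardR, ← hSm]
    ring
  have h2q : (2 : ℝ) ^ q = 2 ^ (q - 1) * 2 := by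
    have h0 := Real.rpow_add_one (two_ne_zero : (2 : ℝ) ≠ 0) (q - 1)
    rw [sub_add_cancel] at h0
    exact h0
  calc ∑ x, ∑ y, |h x - h y| ^ q
      ≤ ∑ a, ∑ b, (2 ^ (q - 1) * (|h a - M| ^ q + |h b - M| ^ q)) :=
        Finset.sum_le_sum fun a _ => Finset.sum_le_sum fun b _ => hpair a b
    _ = 2 ^ (q - 1) * (2 * (m : ℝ) ^ k * Sm) := hdouble
    _ ≤ 2 ^ (q - 1) * (2 * (m : ℝ) ^ k *
          (Lam2 ^ (q / 2) * (m : ℝ) ^ q * ((1 + 2 ^ (2 * r) * Kr) * (m : ℝ) ^ k))) :=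
        mul_le_mul_of_nonneg_left (mul_le_mul_of_nonneg_left hSm_le (by positivity))
          (by positivity)
    _ = 2 ^ q * (1 + 2 ^ (2 * r) * Kr) * Lam2 ^ (q / 2) * (m : ℝ) ^ q * (m : ℝ) ^ (2 * k) := by
        rw [h2q, two_mul k, pow_add]
        ring

end Vale.Agent.Lib.P249.H33g
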