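import Mathlib

/-!
P249, pool job 225 (helper68, step (K)): Khinchin bounds for real coefficients

For real coefficients `a : Fin k → ℝ` and the Rademacher sums
`S ε = ∑ i, (if ε i then -1 else 1) * a i` over the cube `Fin k → Bool`:

* `khinchin_lower`: `2^k * (∑ a_i^2)^(p/2) ≤ ∑_ε |S ε|^p` for `p ≥ 2`;
* `khinchin_upper`: `∑_ε |S ε|^p ≤ 2 * 2^k * (p * (∑ a_i^2) / e)^(p/2)` for `p ≥ 1`.
-/

namespace Vale.Agent.Lib.P249.H33

open Finset

/-- sign of a bit: `false ↦ 1`, `true ↦ -1`. -/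
def sg (b : Bool) : ℝ := if b then -1 else 1

/-- the Rademacher sum `z(ε) = ∑_i c_i * sg (ε i)`. -/
def rad {K : ℕ} (c : Fin K → ℝ) (ε : Fin K → Bool) : ℝ := ∑ i, c i * sg (ε i)

lemma rad_eq {K : ℕ} (c : Fin K → ℝ) (ε : Fin K → Bool) :
    (∑ i, (if ε i then -1 else 1) * c i) = rad c ε := by
  unfold rad sg
  refine Finset.sum_congr rfl fun i _ => ?_
  rw [mul_comm]

/-- moment generating function of a Rademacher sum over the whole cube. -/
lemma sum_exp_rad {K : ℕ} (c : Fin K → ℝ) (L : ℝ) :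
    ∑ ε : Fin K → Bool, Real.exp (L * rad c ε)
      = ∏ i, (Real.exp (L * c i) + Real.exp (-(L * c i))) := by
  have h1 : ∀ ε : Fin K → Bool,
      Real.exp (L * rad c ε) = ∏ i, Real.exp (L * c i * sg (ε i)) := by
    intro ε
    rw [← Real.exp_sum]
    congr 1
    unfold rad
    rw [Finset.mul_sum]
    refine Finset.sum_congr rfl fun i _ => by ring
  simp_rw [h1]
  have h2 := Finset.prod_univ_sum (fun _ : Fin K => (Finset.univ : Finset Bool))
    (fun i (j : Bool) => Real.exp (L * c i * sg j))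
  rw [Fintype.piFinset_univ] at h2
  rw [← h2]
  refine Finset.prod_congr rfl fun i _ => ?_
  rw [Fintype.sum_bool]
  simp [sg, add_comm]

lemma sum_exp_rad_le {K : ℕ} (c : Fin K → ℝ) (L : ℝ) :
    ∑ ε : Fin K → Bool, Real.exp (L * rad c ε)
      ≤ 2 ^ K * Real.exp (L ^ 2 / 2 * ∑ i, c i ^ 2) := by
  rw [sum_exp_rad]
  have h : ∀ i ∈ (Finset.univ : Finset (Fin K)),
      Real.exp (L * c i) + Real.exp (-(L * c i)) ≤ 2 * Real.exp (L ^ 2 / 2 * c i ^ 2) := by
    intro i _
    have h1 := Real.cosh_le_exp_half_sq (L * c i)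
    rw [Real.cosh_eq] at h1
    have : (L * c i) ^ 2 / 2 = L ^ 2 / 2 * c i ^ 2 := by ring
    rw [this] at h1
    linarith
  calc ∏ i, (Real.exp (L * c i) + Real.exp (-(L * c i)))
      ≤ ∏ i : Fin K, (2 * Real.exp (L ^ 2 / 2 * c i ^ 2)) :=
        Finset.prod_le_prod (fun i _ => by positivity) h
    _ = 2 ^ K * Real.exp (L ^ 2 / 2 * ∑ i, c i ^ 2) := by
        rw [Finset.prod_mul_distrib, Finset.prod_const, Finset.card_univ, Fintype.card_fin,
          ← Real.exp_sum, Finset.mul_sum]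

/-- `|r|^q ≤ (q/(e L))^q * (exp (L r) + exp (-(L r)))`. -/
lemma abs_rpow_le_exp (r q L : ℝ) (hq : 0 < q) (hL : 0 < L) :
    |r| ^ q ≤ (q / (Real.exp 1 * L)) ^ q * (Real.exp (L * r) + Real.exp (-(L * r))) := by
  set u : ℝ := L * |r| / q with hu
  have hu0 : 0 ≤ u := by positivity
  have h1 : u ≤ Real.exp (u - 1) := by
    have := Real.add_one_le_exp (u - 1)
    linarith
  have h2 : u ^ q ≤ Real.exp (u - 1) ^ q := Real.rpow_le_rpow hu0 h1 hq.le
  rw [← Real.exp_mul] at h2
  have h3 : |r| = (q / L) * u := by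
    rw [hu]; field_simp
  have h4 : |r| ^ q = (q / L) ^ q * u ^ q := by
    rw [h3, Real.mul_rpow (by positivity) hu0]
  have h5 : (q / (Real.exp 1 * L)) ^ q = (q / L) ^ q * Real.exp (-q) := by
    have : q / (Real.exp 1 * L) = (q / L) * Real.exp (-1) := by
      rw [Real.exp_neg]; field_simp
    rw [this, Real.mul_rpow (by positivity) (by positivity), ← Real.exp_mul]
    congr 2; ring
  have h6 : Real.exp (L * |r|) ≤ Real.exp (L * r) + Real.exp (-(L * r)) := by
    rcases abs_cases r with ⟨h, _⟩ | ⟨h, _⟩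
    · rw [h]; linarith [Real.exp_pos (-(L * r))]
    · rw [h]; have : L * -r = -(L * r) := by ring
      rw [this]; linarith [Real.exp_pos (L * r)]
  have h7 : (u - 1) * q = L * |r| - q := by
    rw [hu]; field_simp
  rw [h7] at h2
  have hpos : 0 ≤ (q / L) ^ q := by positivity
  calc |r| ^ q = (q / L) ^ q * u ^ q := h4
    _ ≤ (q / L) ^ q * Real.exp (L * |r| - q) := mul_le_mul_of_nonneg_left h2 hpos
    _ = (q / L) ^ q * Real.exp (-q) * Real.exp (L * |r|) := by
        rw [mul_assoc, ← Real.exp_add]; congr 2; ring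
    _ ≤ (q / L) ^ q * Real.exp (-q) * (Real.exp (L * r) + Real.exp (-(L * r))) :=
        mul_le_mul_of_nonneg_left h6 (by positivity)
    _ = (q / (Real.exp 1 * L)) ^ q * (Real.exp (L * r) + Real.exp (-(L * r))) := by rw [h5]

/-- Khinchin-type upper bound with an explicit constant, for every `L > 0`. -/
lemma sum_abs_rad_rpow_le {K : ℕ} (c : Fin K → ℝ) (p L : ℝ) (hp : 0 < p) (hL : 0 < L) :
    ∑ ε : Fin K → Bool, |rad c ε| ^ p
      ≤ (p / (Real.exp 1 * L)) ^ p * (2 * (2 ^ K * Real.exp (L ^ 2 / 2 * ∑ i, c i ^ 2))) := by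
  have h1 : ∀ ε : Fin K → Bool, |rad c ε| ^ p
      ≤ (p / (Real.exp 1 * L)) ^ p * (Real.exp (L * rad c ε) + Real.exp ((-L) * rad c ε)) := by
    intro ε
    have := abs_rpow_le_exp (rad c ε) p L hp hL
    simpa [neg_mul] using this
  have hpos : 0 ≤ (p / (Real.exp 1 * L)) ^ p := by positivity
  calc ∑ ε : Fin K → Bool, |rad c ε| ^ p
      ≤ ∑ ε : Fin K → Bool, (p / (Real.exp 1 * L)) ^ p *
          (Real.exp (L * rad c ε) + Real.exp ((-L) * rad c ε)) :=
        Finset.sum_le_sum fun ε _ => h1 ε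
    _ = (p / (Real.exp 1 * L)) ^ p * (∑ ε : Fin K → Bool, Real.exp (L * rad c ε)
          + ∑ ε : Fin K → Bool, Real.exp ((-L) * rad c ε)) := by
        rw [← Finset.mul_sum, Finset.sum_add_distrib]
    _ ≤ (p / (Real.exp 1 * L)) ^ p * (2 * (2 ^ K * Real.exp (L ^ 2 / 2 * ∑ i, c i ^ 2))) := by
        refine mul_le_mul_of_nonneg_left ?_ hpos
        have ha := sum_exp_rad_le c L
        have hb := sum_exp_rad_le c (-L)
        have : (-L) ^ 2 = L ^ 2 := by ring
        rw [this] at hb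
        linarith

/-- flipping the `i`-th bit, as a permutation of the cube. -/
def flipBit {K : ℕ} (i : Fin K) : Equiv.Perm (Fin K → Bool) :=
  Function.Involutive.toPerm (fun ε => Function.update ε i (!ε i)) (by
    intro ε
    funext j
    by_cases h : j = i
    · subst h; simp
    · simp [Function.update_of_ne h])

lemma flipBit_apply_same {K : ℕ} (i : Fin K) (ε : Fin K → Bool) : flipBit i ε i = !ε i := by
  show Function.update ε i (!ε i) i = !ε i
  simp

lemma flipBit_apply_ne {K : ℕ} {i j : Fin K} (h : j ≠ i) (ε : Fin K → Bool) :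
    flipBit i ε j = ε j := by
  show Function.update ε i (!ε i) j = ε j
  simp [Function.update_of_ne h]

lemma sg_not (x : Bool) : sg (!x) = -sg x := by
  cases x <;> simp [sg]

lemma sg_mul_self (x : Bool) : sg x * sg x = 1 := by
  cases x <;> simp [sg]

/-- a sum over the cube that changes sign under a bit flip vanishes. -/
lemma sum_eq_zero_of_flip {K : ℕ} (i : Fin K) (F : (Fin K → Bool) → ℝ)
    (hF : ∀ ε, F (flipBit i ε) = -F ε) : ∑ ε, F ε = 0 := by
  have h := Equiv.sum_comp (flipBit i) F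
  simp_rw [hF] at h
  rw [Finset.sum_neg_distrib] at h
  linarith

lemma sum_sg_mul_sg {K : ℕ} (i j : Fin K) :
    ∑ ε : Fin K → Bool, sg (ε i) * sg (ε j) = if i = j then (2 : ℝ) ^ K else 0 := by
  split_ifs with h
  · subst h
    simp [sg_mul_self]
  · refine sum_eq_zero_of_flip i _ fun ε => ?_
    rw [flipBit_apply_same, flipBit_apply_ne (Ne.symm h), sg_not]
    ring

/-- second moment of a Rademacher sum over the cube. -/
lemma sum_rad_sq {K : ℕ} (c : Fin K → ℝ) :
    ∑ ε : Fin K → Bool, rad c ε ^ 2 = 2 ^ K * ∑ i, c i ^ 2 := by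
  have h1 : ∀ ε : Fin K → Bool,
      rad c ε ^ 2 = ∑ i, ∑ j, c i * c j * (sg (ε i) * sg (ε j)) := by
    intro ε
    unfold rad
    rw [sq, Finset.sum_mul_sum]
    refine Finset.sum_congr rfl fun i _ => Finset.sum_congr rfl fun j _ => by ring
  simp_rw [h1]
  rw [Finset.sum_comm]
  simp_rw [Finset.sum_comm (s := (Finset.univ : Finset (Fin K → Bool))), ← Finset.mul_sum,
    sum_sg_mul_sg]
  rw [Finset.mul_sum]
  refine Finset.sum_congr rfl fun i _ => ?_
  simp [sq]
  ring

/-- power mean inequality between the exponents `2` and `p ≥ 2` over a finite type. -/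
lemma card_mul_rpow_le_sum_abs_rpow {ι : Type*} [Fintype ι] [Nonempty ι] (z : ι → ℝ) (p : ℝ)
    (hp : 2 ≤ p) :
    (Fintype.card ι : ℝ) * ((∑ t, z t ^ 2) / Fintype.card ι) ^ (p / 2) ≤ ∑ t, |z t| ^ p := by
  have hN : (0 : ℝ) < Fintype.card ι := by exact_mod_cast Fintype.card_pos
  have h := Real.rpow_arith_mean_le_arith_mean_rpow (Finset.univ : Finset ι)
    (fun _ => 1 / (Fintype.card ι : ℝ)) (fun t => z t ^ 2) (fun _ _ => by positivity)
    (by simp) (fun t _ => sq_nonneg _) (p := p / 2) (by linarith)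
  have h1 : ∀ t, (z t ^ 2) ^ (p / 2) = |z t| ^ p := by
    intro t
    rw [← sq_abs, ← Real.rpow_natCast, ← Real.rpow_mul (abs_nonneg _)]
    congr 1; push_cast; ring
  simp_rw [h1, ← Finset.mul_sum] at h
  have h2 : 1 / (Fintype.card ι : ℝ) * ∑ t, z t ^ 2 = (∑ t, z t ^ 2) / Fintype.card ι := by
    field_simp
  rw [h2] at h
  calc (Fintype.card ι : ℝ) * ((∑ t, z t ^ 2) / Fintype.card ι) ^ (p / 2)
      ≤ (Fintype.card ι : ℝ) * (1 / (Fintype.card ι : ℝ) * ∑ t, |z t| ^ p) :=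
        mul_le_mul_of_nonneg_left h hN.le
    _ = ∑ t, |z t| ^ p := by field_simp

/-- Khinchin lower bound for real coefficients, `p ≥ 2`. -/
theorem khinchin_lower (k : ℕ) (p : ℝ) (hp : 2 ≤ p) (a : Fin k → ℝ) :
    (2 : ℝ) ^ k * (∑ i, a i ^ 2) ^ (p / 2) ≤
      ∑ ε : Fin k → Bool, |∑ i, (if ε i then -1 else 1) * a i| ^ p := by
  simp_rw [rad_eq]
  have hcard : (Fintype.card (Fin k → Bool) : ℝ) = (2 : ℝ) ^ k := by
    simp only [Fintype.card_fun, Fintype.card_bool, Fintype.card_fin]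
    push_cast
    rfl
  have h := card_mul_rpow_le_sum_abs_rpow (fun ε : Fin k → Bool => rad a ε) p hp
  rw [hcard, sum_rad_sq] at h
  have h2 : (0 : ℝ) < 2 ^ k := by positivity
  have : (2 : ℝ) ^ k * (∑ i, a i ^ 2) / 2 ^ k = ∑ i, a i ^ 2 := by field_simp
  rw [this] at h
  exact h

/-- Khinchin upper bound for real coefficients, `p ≥ 1`. -/
theorem khinchin_upper (k : ℕ) (p : ℝ) (hp : 1 ≤ p) (a : Fin k → ℝ) :
    ∑ ε : Fin k → Bool, |∑ i, (if ε i then -1 else 1) * a i| ^ p ≤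
      2 * 2 ^ k * (p * (∑ i, a i ^ 2) / Real.exp 1) ^ (p / 2) := by
  simp_rw [rad_eq]
  have hp0 : 0 < p := by linarith
  have he : 0 < Real.exp 1 := Real.exp_pos 1
  set A : ℝ := ∑ i, a i ^ 2 with hA
  have hA0 : 0 ≤ A := Finset.sum_nonneg fun i _ => sq_nonneg (a i)
  have hrhs : 0 ≤ 2 * 2 ^ k * (p * A / Real.exp 1) ^ (p / 2) := by
    have : 0 ≤ p * A / Real.exp 1 := by positivity
    have h2 : 0 ≤ (p * A / Real.exp 1) ^ (p / 2) := Real.rpow_nonneg this _
    positivity
  rcases hA0.eq_or_lt with h0 | hpos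
  · -- all coefficients vanish
    have hc0 : ∀ i, a i = 0 := by
      intro i
      have h1 : ∑ i, a i ^ 2 = 0 := by rw [← hA, ← h0]
      have h2 := (Finset.sum_eq_zero_iff_of_nonneg (fun i _ => sq_nonneg (a i))).1 h1 i
        (Finset.mem_univ i)
      exact pow_eq_zero_iff (two_ne_zero) |>.1 h2
    have hr : ∀ ε : Fin k → Bool, rad a ε = 0 := by
      intro ε; unfold rad; simp [hc0]
    simp_rw [hr, abs_zero, Real.zero_rpow hp0.ne']
    rw [Finset.sum_const_zero]
    exact hrhs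
  · set L : ℝ := Real.sqrt (p / A) with hLdef
    have hLpos : 0 < L := Real.sqrt_pos.2 (by positivity)
    have hLsq : L ^ 2 = p / A := Real.sq_sqrt (by positivity)
    have key := sum_abs_rad_rpow_le a p L hp0 hLpos
    rw [← hA, hLsq] at key
    have hexp : p / A / 2 * A = p / 2 := by field_simp
    rw [hexp] at key
    refine key.trans (le_of_eq ?_)
    have hx : 0 < p / (Real.exp 1 * L) := by positivity
    have h1 : (p / (Real.exp 1 * L)) ^ p = ((p / (Real.exp 1 * L)) ^ 2) ^ (p / 2) := by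
      rw [← Real.rpow_natCast, ← Real.rpow_mul hx.le]
      congr 1; push_cast; ring
    have h2 : (p / (Real.exp 1 * L)) ^ 2 = p * A / Real.exp 1 ^ 2 := by
      rw [div_pow, mul_pow, hLsq]; field_simp
    have h3 : Real.exp (p / 2) = Real.exp 1 ^ (p / 2) := by
      rw [Real.exp_one_rpow]
    rw [h1, h2, h3]
    have e1 : (p * A / Real.exp 1 ^ 2) ^ (p / 2) * Real.exp 1 ^ (p / 2)
        = (p * A / Real.exp 1) ^ (p / 2) := by
      rw [← Real.mul_rpow (by positivity) (by positivity)]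
      congr 1; field_simp
    calc (p * A / Real.exp 1 ^ 2) ^ (p / 2) * (2 * (2 ^ k * Real.exp 1 ^ (p / 2)))
        = 2 * 2 ^ k * ((p * A / Real.exp 1 ^ 2) ^ (p / 2) * Real.exp 1 ^ (p / 2)) := by ring
      _ = 2 * 2 ^ k * (p * A / Real.exp 1) ^ (p / 2) := by rw [e1]

end Vale.Agent.Lib.P249.H33
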